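import Vale.Agent.P207.H566N.DefsN
import Vale.Agent.P207.Q.H791.Final

/-!
# P207: the final statement in dimension `n`, from the core theorem
-/

open scoped Manifold ContDiff ENNReal
open Bundle MeasureTheory Set Filter

noncomputable section

namespace Vale.Agent.P207F.QN

open Vale.Agent.P255 (RMetric innerAt coefIn Gam Riem IsGeo)
open Vale.Agent.P207F

section Neg

variable {n : ℕ} {M : Type} [TopologicalSpace M] [ChartedSpace (EV n) M]
  [IsManifold 𝓘(ℝ, EV n) ∞ M] {g : RMetric (EV n) M}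

/-- pinched metrics have negative curvature -/
theorem neg_of_pinched (h : FourNinthsPinched g) : NegCurvature g := by
  obtain ⟨k, hk, h⟩ := h
  intro p u hu v w hli
  have h1 := (h p u hu v w hli).2
  have h2 := P207.Q.H717.gramDet_pos g hu hli
  nlinarith

end Neg

variable {n : ℕ} {M : Type} [TopologicalSpace M] [CompactSpace M] [T2Space M] [ConnectedSpace M]
  [ChartedSpace (EV n) M] [IsManifold 𝓘(ℝ, EV n) ∞ M] [MeasurableSpace M] [BorelSpace M]

/-- the Liouville entropy is at most the topological entropy -/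
theorem liou_le_top (hn : 2 ≤ n) {g : RMetric (EV n) M} (hN : NegCurvature g) :
    hLiou (stdB n) g ≤ hTop g := by
  have hW := wellDefined hn g
  exact QP.ks_le_top hn ((hW.1 _).2 rfl) ((hW.2.1 _).2 rfl) ((hW.2.2 _).2 rfl)
    (negCurvature_iff.1 hN)

/-- the final statement from the core theorem, for any class of negatively curved metrics -/
theorem final_n (hn : 2 ≤ n) {P : RMetric (EV n) M → Prop} (hP : ∀ g, P g → NegCurvature g)
    (core : ∀ g : RMetric (EV n) M, P g → ∀ φ μ m, P207.IsGeoFlow g φ →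
      P207.IsRiemVol g μ → P207.IsLiouville g μ m →
      P207.ksEntropy m (φ 1) = P207.topEntropy (φ 1) → ∃ κ, ConstCurvature g κ) :
    (∀ g : RMetric (EV n) M, WellDefined (stdB n) g) ∧
    ∀ g : RMetric (EV n) M, P g → NegCurvature g ∧ hLiou (stdB n) g ≤ hTop g ∧
      (hLiou (stdB n) g = hTop g ↔ LocSymmetric g) ∧
      (hLiou (stdB n) g = hTop g ↔ ∃ κ : ℝ, 0 < κ ∧ ConstCurvature g κ) := by
  have hW := fun g : RMetric (EV n) M => wellDefined hn g
  refine ⟨hW, fun g hQ => ?_⟩
  have hN : NegCurvature g := hP g hQ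
  have hφ := ((hW g).1 _).2 rfl
  have hμ := ((hW g).2.1 _).2 rfl
  have hm := ((hW g).2.2 _).2 rfl
  have h1 : LocSymmetric g → hLiou (stdB n) g = hTop g := fun hs =>
    P207.ksEntropy_eq_of_locSymmetric hn hφ hμ hm hN hs
  have h2 : hLiou (stdB n) g = hTop g → ∃ κ : ℝ, 0 < κ ∧ ConstCurvature g κ := by
    intro he
    obtain ⟨κ, hκ⟩ := core g hQ _ _ _ hφ hμ hm he
    exact ⟨κ, QP.pos_of_constCurvature hn hκ hN, hκ⟩
  refine ⟨hN, liou_le_top hn hN, ⟨fun he => ?_, h1⟩,
    ⟨h2, fun ⟨κ, _, hκ⟩ => h1 (QP.locSymmetric_of_constCurvature hκ)⟩⟩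
  obtain ⟨κ, _, hκ⟩ := h2 he
  exact QP.locSymmetric_of_constCurvature hκ

/-- the final statement for strictly `4/9`-pinched metrics, from the core theorem -/
theorem final_pinched (hn : 3 ≤ n)
    (core : ∀ g : RMetric (EV n) M, FourNinthsPinched g → ∀ φ μ m, P207.IsGeoFlow g φ →
      P207.IsRiemVol g μ → P207.IsLiouville g μ m →
      P207.ksEntropy m (φ 1) = P207.topEntropy (φ 1) → ∃ κ, ConstCurvature g κ) :
    (∀ g : RMetric (EV n) M, WellDefined (stdB n) g) ∧
    ∀ g : RMetric (EV n) M, FourNinthsPinched g →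
      NegCurvature g ∧ hLiou (stdB n) g ≤ hTop g ∧
      (hLiou (stdB n) g = hTop g ↔ LocSymmetric g) ∧
      (hLiou (stdB n) g = hTop g ↔ ∃ κ : ℝ, 0 < κ ∧ ConstCurvature g κ) :=
  final_n (by omega) (fun _ h => neg_of_pinched h) core

end Vale.Agent.P207F.QN
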